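import Crest.Agent.R163.Q3.D.P1.S0
import Crest.Agent.R163.Q3.D.P1.H

set_option autoImplicit false
set_option maxRecDepth 100000
set_option linter.all false
set_option Elab.async false

namespace Crest.Agent.R163.P1

theorem p0_4_1 : Ok2 par f4 Box3.unit (selB2 0 C0 4503599458549759) :=
  Ok2.run hw hf4 ⟨335,19,19,13,13⟩ 58
    (.split 0 (.chk false 0) (.split 1 (.chk false 0) (.part 2 (.chk false 0) (.split 0 (.chk false 0) (.split 1 (.chk false 0) (.chk false 0))))))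
    (by decide +kernel)

theorem p0_5_0 : Ok2 par f5 ((((Box3.unit.l 0).r 1).r 0).l 1) (selB2 0 (selB2 0 (selB2 0 (selB2 0 C0 2816808868380671) 3) 1923) 17) :=
  Ok2.run hw hf5 ⟨318,19,19,13,13⟩ 58
    (.chk false 0)
    (by decide +kernel)

theorem p0_5_1 : Ok2 par f5 ((((Box3.unit.l 0).r 1).r 0).r 1) (selB2 0 (selB2 0 (selB2 0 (selB2 0 C0 2816808868380671) 3) 1923) 17) :=
  Ok2.run hw hf5 ⟨417,19,19,13,13⟩ 58
    (.split 2 (.chk false 0) (.split 0 (.part 2 (.chk false 0) (.split 1 (.chk false 0) (.split 2 (.chk false 0) (.split 0 (.chk false 0) (.chk false 0))))) (.chk false 0)))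
    (by decide +kernel)

theorem p0_5_2 : Ok2 par f5 (((Box3.unit.l 0).r 1).r 0) (selB2 1 (selB2 0 (selB2 0 (selB2 0 C0 2816808868380671) 3) 1923) 17) :=
  Ok2.run hw hf5 ⟨304,19,19,13,13⟩ 58
    (.chk false 0)
    (by decide +kernel)

theorem p0_5_3 : Ok2 par f5 (((Box3.unit.l 0).r 1).l 0) (selB2 0 (selB2 0 (selB2 0 C0 2816808868380671) 3) 1923) :=
  Ok2.run hw hf5 ⟨335,19,19,13,13⟩ 58
    (.part 28 (.chk false 0) (.split 1 (.chk false 0) (.chk false 0)))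
    (by decide +kernel)

theorem p0_5_4 : Ok2 par f5 ((Box3.unit.l 0).l 1) (selB2 0 (selB2 0 (selB2 0 C0 2816808868380671) 3) 1923) :=
  Ok2.run hw hf5 ⟨291,19,19,13,13⟩ 58
    (.chk false 0)
    (by decide +kernel)

theorem p0_5_5 : Ok2 par f5 (Box3.unit.l 0) (selB2 1 (selB2 0 (selB2 0 C0 2816808868380671) 3) 1923) :=
  Ok2.run hw hf5 ⟨262,19,19,13,13⟩ 58
    (.chk false 0)
    (by decide +kernel)

theorem p0_5_6 : Ok2 par f5 (((((Box3.unit.r 0).r 1).l 0).r 1).l 0) (selB2 0 (selB2 0 (selB2 0 (selB2 0 (selB2 0 C0 2816808868380671) 3) 1085) 8) 1) :=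
  Ok2.run hw hf5 ⟨412,19,19,13,13⟩ 58
    (.part 5 (.chk false 0) (.split 2 (.chk false 0) (.split 1 (.chk false 0) (.split 2 (.chk false 0) (.split 0 (.chk false 0) (.chk false 0))))))
    (by decide +kernel)

theorem p0_5_7 : Ok2 par f5 (((((Box3.unit.r 0).r 1).l 0).r 1).r 0) (selB2 0 (selB2 0 (selB2 0 (selB2 0 (selB2 0 C0 2816808868380671) 3) 1085) 8) 1) :=
  Ok2.run hw hf5 ⟨452,19,19,13,13⟩ 58
    (.part 3 (.chk false 0) (.split 1 (.chk false 0) (.split 2 (.split 0 (.chk false 0) (.chk false 0)) (.split 0 (.split 1 (.chk false 0) (.split 2 (.chk false 0) (.split 0 (.chk false 0) (.chk false 0)))) (.chk false 0)))))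
    (by decide +kernel)

theorem p0_5_8 : Ok2 par f5 ((((Box3.unit.r 0).r 1).l 0).l 1) (selB2 0 (selB2 0 (selB2 0 (selB2 0 (selB2 0 C0 2816808868380671) 3) 1085) 8) 1) :=
  Ok2.run hw hf5 ⟨318,19,19,13,13⟩ 58
    (.chk false 0)
    (by decide +kernel)

theorem p0_5_9 : Ok2 par f5 (((Box3.unit.r 0).r 1).l 0) (selB2 1 (selB2 0 (selB2 0 (selB2 0 (selB2 0 C0 2816808868380671) 3) 1085) 8) 1) :=
  Ok2.run hw hf5 ⟨304,19,19,13,13⟩ 58
    (.chk false 0)
    (by decide +kernel)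

theorem p0_5_10 : Ok2 par f5 (((Box3.unit.r 0).r 1).r 0) (selB2 0 (selB2 0 (selB2 0 (selB2 0 C0 2816808868380671) 3) 1085) 8) :=
  Ok2.run hw hf5 ⟨407,19,19,13,13⟩ 58
    (.part 6 (.chk false 0) (.split 1 (.chk false 0) (.part 2 (.chk false 0) (.split 1 (.chk false 0) (.split 2 (.chk false 0) (.split 0 (.split 1 (.chk false 0) (.chk false 0)) (.chk false 0)))))))
    (by decide +kernel)

theorem p0_5_11 : Ok2 par f5 ((Box3.unit.r 0).r 1) (selB2 1 (selB2 0 (selB2 0 (selB2 0 C0 2816808868380671) 3) 1085) 8) :=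
  Ok2.run hw hf5 ⟨291,19,19,13,13⟩ 58
    (.chk false 0)
    (by decide +kernel)

theorem p0_5_12 : Ok2 par f5 ((Box3.unit.r 0).l 1) (selB2 0 (selB2 0 (selB2 0 C0 2816808868380671) 3) 1085) :=
  Ok2.run hw hf5 ⟨291,19,19,13,13⟩ 58
    (.chk false 0)
    (by decide +kernel)

theorem p0_5_13 : Ok2 par f5 (Box3.unit.r 0) (selB2 1 (selB2 0 (selB2 0 C0 2816808868380671) 3) 1085) :=
  Ok2.run hw hf5 ⟨262,19,19,13,13⟩ 58
    (.chk false 0)
    (by decide +kernel)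

theorem p0_5_14 : Ok2 par f5 Box3.unit (selB2 1 (selB2 0 C0 2816808868380671) 3) :=
  Ok2.run hw hf5 ⟨277,25,25,13,13⟩ 58
    (.chk true 0)
    (by decide +kernel)

theorem p0_5_15 : Ok2 par f5 Box3.unit (selB2 1 C0 2816808868380671) :=
  Ok2.run hw hf5 ⟨234,19,19,13,13⟩ 58
    (.chk false 1024)
    (by decide +kernel)

theorem p0_6_0 : Ok2 par f6 Box3.unit (selB2 1 C0 4503599281340415) :=
  Ok2.run hw hf6 ⟨238,19,19,13,13⟩ 58
    (.chk false 512)
    (by decide +kernel)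

theorem p0_6_1 : Ok2 par f6 Box3.unit (selB2 0 C0 4503599281340415) :=
  Ok2.run hw hf6 ⟨287,25,25,13,13⟩ 58
    (.chk true 0)
    (by decide +kernel)

theorem p0_7_0 : Ok2 par f7 ((Box3.unit.l 0).l 1) (selB2 1 (selB2 0 (selB2 0 (selB2 0 C0 4081386811566079) 3199) 2) 3) :=
  Ok2.run hw hf7 ⟨371,25,25,13,13⟩ 58
    (.chk true 0)
    (by decide +kernel)

theorem p0_7_1 : Ok2 par f7 ((Box3.unit.l 0).l 1) (selB2 0 (selB2 0 (selB2 0 (selB2 0 C0 4081386811566079) 3199) 2) 3) :=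
  Ok2.run hw hf7 ⟨354,19,19,13,13⟩ 58
    (.split 0 (.part 1 (.chk false 0) (.split 1 (.chk false 0) (.chk false 0))) (.chk false 0))
    (by decide +kernel)

theorem p0_7_2 : Ok2 par f7 ((Box3.unit.l 0).l 1) (selB2 1 (selB2 0 (selB2 0 C0 4081386811566079) 3199) 2) :=
  Ok2.run hw hf7 ⟨310,19,19,13,13⟩ 58
    (.chk false 0)
    (by decide +kernel)

theorem p0_7_3 : Ok2 par f7 ((Box3.unit.l 0).r 1) (selB2 1 (selB2 0 (selB2 0 C0 4081386811566079) 3199) 16) :=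
  Ok2.run hw hf7 ⟨310,19,19,13,13⟩ 58
    (.chk false 0)
    (by decide +kernel)

theorem p0_7_4 : Ok2 par f7 ((Box3.unit.l 0).r 1) (selB2 0 (selB2 0 (selB2 0 C0 4081386811566079) 3199) 16) :=
  Ok2.run hw hf7 ⟨399,25,25,13,13⟩ 58
    (.part 4 (.chk true 0) (.split 0 (.part 6 (.chk false 0) (.chk true 0)) (.part 6 (.chk false 0) (.chk true 0))))
    (by decide +kernel)

theorem p0_7_5 : Ok2 par f7 (Box3.unit.r 0) (selB2 0 (selB2 0 C0 4081386811566079) 3199) :=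
  Ok2.run hw hf7 ⟨371,25,25,13,13⟩ 58
    (.part 26 (.chk false 0) (.split 1 (.chk true 0) (.chk true 0)))
    (by decide +kernel)

theorem p0_7_6 : Ok2 par f7 Box3.unit (selB2 1 (selB2 0 C0 4081386811566079) 3199) :=
  Ok2.run hw hf7 ⟨302,25,25,13,13⟩ 58
    (.chk true 0)
    (by decide +kernel)

theorem p0_7_7 : Ok2 par f7 Box3.unit (selB2 1 C0 4081386811566079) :=
  Ok2.run hw hf7 ⟨253,19,19,13,13⟩ 58
    (.chk false 0)
    (by decide +kernel)


end Crest.Agent.R163.P1
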