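import Crest.Agent.R163.Q3.D.P1.S0
import Crest.Agent.R163.Q3.D.P1.H

set_option autoImplicit false
set_option maxRecDepth 100000
set_option linter.all false
set_option Elab.async false

namespace Crest.Agent.R163.P1

theorem p0_0_0 : Ok2 par f0 Box3.unit C0 :=
  Ok2.run hw hf0 ⟨233,19,19,13,13⟩ 58
    (.chk false 2048)
    (by decide +kernel)

theorem p0_1_0 : Ok2 par f1 Box3.unit (selB2 1 C0 4503256029986815) :=
  Ok2.run hw hf1 ⟨236,19,19,16,13⟩ 58
    (.chk false 2048)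
    (by decide +kernel)

theorem p0_1_1 : Ok2 par f1 Box3.unit (selB2 0 C0 4503256029986815) :=
  Ok2.run hw hf1 ⟨326,19,19,16,13⟩ 58
    (.split 0 (.chk false 0) (.part 2 (.chk false 0) (.split 2 (.split 2 (.split 0 (.chk false 0) (.chk false 0)) (.chk false 0)) (.chk false 0))))
    (by decide +kernel)

theorem p0_2_0 : Ok2 par f2 ((((Box3.unit.l 1).l 1).r 2).l 0) (selB2 1 (selB2 0 (selB2 0 (selB2 0 (selB2 0 C0 563202938732543) 8372471) 1) 32) 24) :=
  Ok2.run hw hf2 ⟨331,19,19,13,13⟩ 58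
    (.chk false 0)
    (by decide +kernel)

theorem p0_2_1 : Ok2 par f2 ((((Box3.unit.l 1).l 1).r 2).l 0) (selB2 0 (selB2 0 (selB2 0 (selB2 0 (selB2 0 C0 563202938732543) 8372471) 1) 32) 24) :=
  Ok2.run hw hf2 ⟨411,19,19,13,13⟩ 58
    (.split 0 (.part 3 (.chk false 0) (.split 0 (.chk false 0) (.chk false 0))) (.part 5 (.chk false 0) (.split 2 (.chk false 0) (.split 1 (.split 2 (.chk false 0) (.split 0 (.chk false 0) (.chk false 0))) (.chk false 0)))))
    (by decide +kernel)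

theorem p0_2_2 : Ok2 par f2 ((((Box3.unit.l 1).l 1).r 2).r 0) (selB2 0 (selB2 0 (selB2 0 (selB2 0 C0 563202938732543) 8372471) 1) 32) :=
  Ok2.run hw hf2 ⟨366,19,19,13,13⟩ 58
    (.part 7 (.chk false 0) (.split 1 (.chk false 0) (.split 1 (.chk false 0) (.chk false 0))))
    (by decide +kernel)

theorem p0_2_3 : Ok2 par f2 (((Box3.unit.l 1).l 1).r 2) (selB2 1 (selB2 0 (selB2 0 (selB2 0 C0 563202938732543) 8372471) 1) 32) :=
  Ok2.run hw hf2 ⟨302,19,19,13,13⟩ 58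
    (.chk false 0)
    (by decide +kernel)

theorem p0_2_4 : Ok2 par f2 (((Box3.unit.l 1).l 1).l 2) (selB2 0 (selB2 0 (selB2 0 C0 563202938732543) 8372471) 1) :=
  Ok2.run hw hf2 ⟨366,19,19,13,13⟩ 58
    (.part 23 (.chk false 0) (.split 0 (.split 2 (.split 0 (.chk false 0) (.chk false 0)) (.chk false 0)) (.chk false 0)))
    (by decide +kernel)

theorem p0_2_5 : Ok2 par f2 ((Box3.unit.l 1).l 1) (selB2 1 (selB2 0 (selB2 0 C0 563202938732543) 8372471) 1) :=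
  Ok2.run hw hf2 ⟨285,19,19,13,13⟩ 58
    (.chk false 1024)
    (by decide +kernel)

theorem p0_2_6 : Ok2 par f2 ((Box3.unit.l 1).r 1) (selB2 0 (selB2 0 C0 563202938732543) 8372471) :=
  Ok2.run hw hf2 ⟨276,19,19,13,13⟩ 58
    (.chk false 1024)
    (by decide +kernel)

theorem p0_2_7 : Ok2 par f2 (Box3.unit.l 1) (selB2 1 (selB2 0 C0 563202938732543) 8372471) :=
  Ok2.run hw hf2 ⟨263,19,19,13,13⟩ 58
    (.chk false 2048)
    (by decide +kernel)

theorem p0_2_8 : Ok2 par f2 (((((Box3.unit.r 1).r 0).l 1).r 0).l 1) (selB2 0 (selB2 0 (selB2 0 C0 563202938732543) 2113291) 7966) :=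
  Ok2.run hw hf2 ⟨342,19,19,13,13⟩ 58
    (.chk false 512)
    (by decide +kernel)

theorem p0_2_9 : Ok2 par f2 (((((Box3.unit.r 1).r 0).l 1).r 0).r 1) (selB2 0 (selB2 0 (selB2 0 C0 563202938732543) 2113291) 7966) :=
  Ok2.run hw hf2 ⟨442,19,19,13,13⟩ 58
    (.part 10 (.chk false 0) (.split 0 (.chk false 512) (.split 1 (.chk false 512) (.part 2 (.chk false 0) (.split 0 (.chk false 512) (.split 0 (.chk false 512) (.split 1 (.chk false 512) (.chk false 512))))))))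
    (by decide +kernel)

theorem p0_2_10 : Ok2 par f2 ((((Box3.unit.r 1).r 0).l 1).l 0) (selB2 0 (selB2 0 (selB2 0 C0 563202938732543) 2113291) 7966) :=
  Ok2.run hw hf2 ⟨318,19,19,13,13⟩ 58
    (.chk false 512)
    (by decide +kernel)

theorem p0_2_11 : Ok2 par f2 (((Box3.unit.r 1).r 0).l 1) (selB2 1 (selB2 0 (selB2 0 C0 563202938732543) 2113291) 7966) :=
  Ok2.run hw hf2 ⟨305,19,19,13,13⟩ 58
    (.chk false 2048)
    (by decide +kernel)

theorem p0_2_12 : Ok2 par f2 (((((((Box3.unit.r 1).r 0).r 1).r 0).r 0).l 1).l 0) (selB2 0 (selB2 0 (selB2 0 (selB2 0 C0 563202938732543) 2113291) 4321) 117) :=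
  Ok2.run hw hf2 ⟨388,19,19,13,13⟩ 58
    (.chk false 2048)
    (by decide +kernel)

theorem p0_2_13 : Ok2 par f2 (((((((Box3.unit.r 1).r 0).r 1).r 0).r 0).l 1).r 0) (selB2 0 (selB2 0 (selB2 0 (selB2 0 C0 563202938732543) 2113291) 4321) 117) :=
  Ok2.run hw hf2 ⟨497,19,19,13,13⟩ 58
    (.split 1 (.part 6 (.chk false 2048) (.split 0 (.chk false 1024) (.split 1 (.split 2 (.chk false 1024) (.split 0 (.chk false 1024) (.split 1 (.chk false 1024) (.chk false 1024)))) (.chk false 1024)))) (.chk false 2048))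
    (by decide +kernel)

theorem p0_2_14 : Ok2 par f2 ((((((Box3.unit.r 1).r 0).r 1).r 0).r 0).l 1) (selB2 1 (selB2 0 (selB2 0 (selB2 0 C0 563202938732543) 2113291) 4321) 117) :=
  Ok2.run hw hf2 ⟨371,19,19,13,13⟩ 58
    (.chk false 0)
    (by decide +kernel)

theorem p0_2_15 : Ok2 par f2 (((((((Box3.unit.r 1).r 0).r 1).r 0).r 0).r 1).l 0) (selB2 0 (selB2 0 (selB2 0 (selB2 0 C0 563202938732543) 2113291) 4321) 30) :=
  Ok2.run hw hf2 ⟨392,19,19,13,13⟩ 58
    (.chk false 0)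
    (by decide +kernel)

theorem p0_2_16 : Ok2 par f2 (((((((Box3.unit.r 1).r 0).r 1).r 0).r 0).r 1).r 0) (selB2 0 (selB2 0 (selB2 0 (selB2 0 C0 563202938732543) 2113291) 4321) 30) :=
  Ok2.run hw hf2 ⟨444,19,19,13,13⟩ 58
    (.split 2 (.part 10 (.chk false 0) (.split 2 (.split 1 (.chk false 0) (.chk false 0)) (.chk false 0))) (.part 1 (.chk false 0) (.split 1 (.chk false 0) (.chk false 0))))
    (by decide +kernel)

theorem p0_2_17 : Ok2 par f2 ((((((Box3.unit.r 1).r 0).r 1).r 0).r 0).r 1) (selB2 1 (selB2 0 (selB2 0 (selB2 0 C0 563202938732543) 2113291) 4321) 30) :=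
  Ok2.run hw hf2 ⟨375,19,19,13,13⟩ 58
    (.chk false 2048)
    (by decide +kernel)

theorem p0_2_18 : Ok2 par f2 (((((Box3.unit.r 1).r 0).r 1).r 0).l 0) (selB2 0 (selB2 0 (selB2 0 C0 563202938732543) 2113291) 4321) :=
  Ok2.run hw hf2 ⟨351,19,19,13,13⟩ 58
    (.chk false 2048)
    (by decide +kernel)

theorem p0_2_19 : Ok2 par f2 ((((Box3.unit.r 1).r 0).r 1).l 0) (selB2 0 (selB2 0 (selB2 0 C0 563202938732543) 2113291) 4321) :=
  Ok2.run hw hf2 ⟨327,19,19,13,13⟩ 58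
    (.chk false 2048)
    (by decide +kernel)

theorem p0_2_20 : Ok2 par f2 (((Box3.unit.r 1).r 0).r 1) (selB2 1 (selB2 0 (selB2 0 C0 563202938732543) 2113291) 4321) :=
  Ok2.run hw hf2 ⟨313,19,19,13,13⟩ 58
    (.chk false 512)
    (by decide +kernel)

theorem p0_2_21 : Ok2 par f2 ((Box3.unit.r 1).l 0) (selB2 0 (selB2 0 C0 563202938732543) 2113291) :=
  Ok2.run hw hf2 ⟨291,19,19,13,13⟩ 58
    (.chk false 2048)
    (by decide +kernel)

theorem p0_2_22 : Ok2 par f2 (Box3.unit.r 1) (selB2 1 (selB2 0 C0 563202938732543) 2113291) :=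
  Ok2.run hw hf2 ⟨263,19,19,13,13⟩ 58
    (.chk false 1024)
    (by decide +kernel)

theorem p0_2_23 : Ok2 par f2 Box3.unit (selB2 1 C0 563202938732543) :=
  Ok2.run hw hf2 ⟨234,19,19,13,13⟩ 58
    (.chk false 2048)
    (by decide +kernel)

theorem p0_3_0 : Ok2 par f3 (((((((Box3.unit.r 1).r 0).r 1).r 0).r 1).r 0).l 0) (selB2 0 (selB2 0 (selB2 0 C0 4499385190711295) 3) 31) :=
  Ok2.run hw hf3 ⟨394,19,19,16,13⟩ 58
    (.chk false 0)
    (by decide +kernel)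

theorem p0_3_1 : Ok2 par f3 (((((((Box3.unit.r 1).r 0).r 1).r 0).r 1).r 0).r 0) (selB2 0 (selB2 0 (selB2 0 C0 4499385190711295) 3) 31) :=
  Ok2.run hw hf3 ⟨509,19,19,16,13⟩ 58
    (.split 2 (.chk false 0) (.split 1 (.chk false 0) (.split 0 (.chk false 0) (.split 2 (.chk false 0) (.split 1 (.chk false 0) (.split 0 (.chk false 0) (.chk false 0)))))))
    (by decide +kernel)

theorem p0_3_2 : Ok2 par f3 ((((((Box3.unit.r 1).r 0).r 1).r 0).r 1).r 0) (selB2 1 (selB2 0 (selB2 0 C0 4499385190711295) 3) 31) :=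
  Ok2.run hw hf3 ⟨377,19,19,16,13⟩ 58
    (.chk false 0)
    (by decide +kernel)

theorem p0_3_3 : Ok2 par f3 ((((((Box3.unit.r 1).r 0).r 1).r 0).r 1).l 0) (selB2 0 (selB2 0 C0 4499385190711295) 3) :=
  Ok2.run hw hf3 ⟨373,19,19,16,13⟩ 58
    (.chk false 0)
    (by decide +kernel)

theorem p0_3_4 : Ok2 par f3 (((((Box3.unit.r 1).r 0).r 1).r 0).l 1) (selB2 0 (selB2 0 C0 4499385190711295) 3) :=
  Ok2.run hw hf3 ⟨353,19,19,16,13⟩ 58
    (.chk false 0)
    (by decide +kernel)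

theorem p0_3_5 : Ok2 par f3 ((((Box3.unit.r 1).r 0).r 1).r 0) (selB2 1 (selB2 0 C0 4499385190711295) 3) :=
  Ok2.run hw hf3 ⟨337,19,19,16,13⟩ 58
    (.chk false 0)
    (by decide +kernel)

theorem p0_3_6 : Ok2 par f3 ((((Box3.unit.r 1).r 0).r 1).l 0) (selB2 0 C0 4499385190711295) :=
  Ok2.run hw hf3 ⟨328,19,19,16,13⟩ 58
    (.chk false 0)
    (by decide +kernel)

theorem p0_3_7 : Ok2 par f3 (((Box3.unit.r 1).r 0).l 1) (selB2 0 C0 4499385190711295) :=
  Ok2.run hw hf3 ⟨306,19,19,16,13⟩ 58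
    (.chk false 0)
    (by decide +kernel)

theorem p0_3_8 : Ok2 par f3 ((Box3.unit.r 1).l 0) (selB2 0 C0 4499385190711295) :=
  Ok2.run hw hf3 ⟨293,19,19,16,13⟩ 58
    (.chk false 0)
    (by decide +kernel)

theorem p0_3_9 : Ok2 par f3 (Box3.unit.l 1) (selB2 0 C0 4499385190711295) :=
  Ok2.run hw hf3 ⟨264,19,19,16,13⟩ 58
    (.chk false 0)
    (by decide +kernel)

theorem p0_3_10 : Ok2 par f3 Box3.unit (selB2 1 C0 4499385190711295) :=
  Ok2.run hw hf3 ⟨236,19,19,16,13⟩ 58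
    (.chk false 2048)
    (by decide +kernel)

theorem p0_4_0 : Ok2 par f4 Box3.unit (selB2 1 C0 4503599458549759) :=
  Ok2.run hw hf4 ⟨234,19,19,13,13⟩ 58
    (.chk false 2048)
    (by decide +kernel)


end Crest.Agent.R163.P1
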